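import Vale.Agent.P235.ST.H119.Clock
import Vale.Agent.P235.ST.H188.RowsPlan
import Vale.Agent.P235.ST.H611.Cost

/-! P235, (ST) O(1): row r11 `stretch` and r12 `stretches`. helper24. -/

namespace Vale.Agent.P235.STO.H24

open SimpleGraph
open Vale.Agent.P235.STO.H119 (reach_of_walk D_lip D_M)
open Vale.Agent.P235.STO.H188 (nxt_scale nxt_attain uns_le)
open Vale.Agent.P235.STO.H611 (cost_append abs_le_cost vert hop_cost)

variable {V : Type}

/-- minimal nonempty prefix with a property -/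
theorem first_stop {G : SimpleGraph V} {a b : V} (g : G.Walk a b)
    (P : ∀ c, G.Walk a c → Prop) :
    (∃ (c : V) (g1 : G.Walk a c) (g2 : G.Walk c b), g = g1.append g2 ∧ 0 < g1.length ∧ P c g1 ∧
      ∀ (c' : V) (g1' : G.Walk a c') (g2' : G.Walk c' b), g = g1'.append g2' → 0 < g1'.length →
        P c' g1' → g1.length ≤ g1'.length) ∨
    ∀ (c : V) (g1 : G.Walk a c) (g2 : G.Walk c b), g = g1.append g2 → 0 < g1.length →
      ¬ P c g1 := by
  classical
  by_cases h : ∃ n, ∃ (c : V) (g1 : G.Walk a c) (g2 : G.Walk c b), g = g1.append g2 ∧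
      0 < g1.length ∧ P c g1 ∧ g1.length = n
  · left
    obtain ⟨c, g1, g2, h1, h2, h3, h4⟩ := Nat.find_spec h
    refine ⟨c, g1, g2, h1, h2, h3, fun c' g1' g2' e1 e2 e3 => ?_⟩
    rw [h4]
    exact Nat.find_min' h ⟨c', g1', g2', e1, e2, e3, rfl⟩
  · right
    intro c g1 g2 h1 h2 h3
    exact h ⟨_, c, g1, g2, h1, h2, h3, rfl⟩

theorem prefix_cut {G : SimpleGraph V} {a c b x : V} (g : G.Walk a b)
    (g1 : G.Walk a c) (g2 : G.Walk c b) (h : g = g1.append g2) (hx : x ∈ g1.support)
    (hxa : x ≠ a) (hxc : x ≠ c) :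
    ∃ (g1' : G.Walk a x) (g2' : G.Walk x b), g = g1'.append g2' ∧ 0 < g1'.length ∧
      g1'.length < g1.length ∧ (∀ z ∈ g1'.support, z ∈ g1.support) := by
  classical
  refine ⟨g1.takeUntil x hx, (g1.dropUntil x hx).append g2, ?_, ?_, ?_, ?_⟩
  · rw [h, Walk.append_assoc, Walk.take_spec]
  · rcases Nat.eq_zero_or_pos (g1.takeUntil x hx).length with h0 | h0
    · exact absurd (Walk.eq_of_length_eq_zero h0).symm hxa
    · exact h0
  · have h1 := congrArg Walk.length (Walk.take_spec g1 hx)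
    rw [Walk.length_append] at h1
    rcases Nat.eq_zero_or_pos (g1.dropUntil x hx).length with h0 | h0
    · exact absurd (Walk.eq_of_length_eq_zero h0) hxc
    · omega
  · exact fun z hz => Walk.support_takeUntil_subset_support _ _ hz

variable (W : LWorld V)

theorem abs_u_le_length {x y : V} (g : W.G.Walk x y) : |W.u x - W.u y| ≤ (g.length : ℤ) := by
  induction g with
  | nil => simp
  | @cons a b c h p ih =>
    rw [Walk.length_cons]
    have h1 := W.unit _ _ h
    have h2 := abs_sub_le (W.u a) (W.u b) (W.u c)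
    push_cast
    omega

theorem abs_u_le_dist (x y : V) : |W.u x - W.u y| ≤ (W.G.dist x y : ℤ) := by
  obtain ⟨g, hg⟩ := W.conn.exists_walk_length_eq_dist x y
  rw [← hg]
  exact abs_u_le_length W g

theorem abs_u_le_d (x y : V) : |(W.u x : ℝ) - W.u y| ≤ W.d x y := by
  have h := abs_u_le_dist W x y
  have h2 : ((|W.u x - W.u y| : ℤ) : ℝ) ≤ ((W.G.dist x y : ℤ) : ℝ) := by exact_mod_cast h
  rw [Int.cast_abs, Int.cast_sub] at h2
  simpa [LWorld.d] using h2

theorem d_tri (x y z : V) : W.d x z ≤ W.d x y + W.d y z := by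
  unfold LWorld.d
  exact_mod_cast W.conn.dist_triangle

theorem d_symm (x y : V) : W.d x y = W.d y x := by
  unfold LWorld.d
  rw [SimpleGraph.dist_comm]

theorem d_nonneg (x y : V) : 0 ≤ W.d x y := by
  unfold LWorld.d
  positivity

theorem th_pos (k : ℕ) : 0 < th k := by
  unfold th
  positivity

theorem band_shift (k m : ℕ) {a x : V} (δ : ℤ) (h : |W.u x - W.u a| ≤ δ)
    (lo : δ ≤ W.pos k m a) (hi : W.pos k m a + δ < th k) :
    W.bi k m x = W.bi k m a ∧ W.pos k m x = W.pos k m a + (W.u x - W.u a) := by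
  have h0 := th_pos k
  have h1 := abs_le.1 h
  have h2 : W.pos k m a + th k * W.bi k m a = W.u a + m * 2 ^ k := Int.emod_add_mul_ediv _ _
  have h3 := (Int.ediv_emod_unique h0 (a := W.u x + m * 2 ^ k) (q := W.bi k m a)
    (r := W.pos k m a + (W.u x - W.u a))).2 ⟨by linarith, by linarith, by linarith⟩
  exact h3

/-- a walk starting at a point in the middle which is short stays in the band -/
theorem band_walk (k m : ℕ) {a x : V} (g : W.G.Walk a x)
    (lo : (g.length : ℤ) ≤ W.pos k m a) (hi : W.pos k m a + g.length < th k) :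
    ∀ z ∈ g.support, W.bi k m z = W.bi k m a := by
  classical
  intro z hz
  have h1 := abs_u_le_length W (g.takeUntil z hz)
  have h2 := Walk.length_takeUntil_le_length g hz
  rw [abs_sub_comm] at h1
  exact (band_shift W k m (g.length : ℤ) (by omega) lo hi).1


/-- case S: hop to the next lined vertex -/
theorem stretch_hop [Fintype V] {ρ w : V → ℝ} (hw : W.Inv (W.nxt ρ) w)
    {p a b : V} {k m : ℕ} (g : W.G.Walk a b) (hg : g.IsPath) (hr : W.Reg ρ p k m g)
    (hb : b ∈ W.N) (hne : a ≠ b) (hs : W.nxt ρ a ≤ 4 / kap) :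
    ∃ (c : V) (g1 : W.G.Walk a c) (g2 : W.G.Walk c b), g = g1.append g2 ∧ 0 < g1.length ∧
      c ∈ W.N ∧ (W.D k m c : ℝ) ≤ W.D k m a + (5 / 4) * cost w g1 := by
  have hgl : 0 < g.length := by
    rcases Nat.eq_zero_or_pos g.length with h0 | h0
    · exact absurd (Walk.eq_of_length_eq_zero h0) hne
    · exact h0
  rcases first_stop g (fun c _ => c ∈ W.N) with ⟨c, g1, g2, h1, h2, h3, h4⟩ | h
  · have hsub : ∀ z ∈ g1.support, z ∈ g.support := by
      intro z hz
      rw [h1, Walk.mem_support_append_iff]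
      exact Or.inl hz
    have hin : ∀ z ∈ g1.support, z ≠ a → z ≠ c → z ∉ W.N := by
      intro z hz hza hzc hzN
      obtain ⟨g1', g2', e1, e2, e3, -⟩ := prefix_cut g g1 g2 h1 hz hza hzc
      have := h4 z g1' g2' e1 e2 hzN
      omega
    have hp1 : g1.IsPath := by
      rw [h1] at hg
      exact hg.of_append_left
    have h5 := hop_cost W (nxt_scale W ρ) hw g1 hp1 hin hs
    obtain ⟨h6, h7⟩ := reach_of_walk W k m g1 (fun z hz => hr.same z (hsub z hz))
    have h8 := D_lip W k m h6
    have h9 : (W.D k m c : ℝ) ≤ W.D k m a + g1.length := by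
      have : (W.D k m c : ℤ) ≤ W.D k m a + g1.length := by
        have : ((W.Bg k m).dist a c : ℤ) ≤ g1.length := by exact_mod_cast h7
        linarith
      exact_mod_cast this
    exact ⟨c, g1, g2, h1, h2, h3, by linarith⟩
  · exact absurd hb (h b g Walk.nil (by simp) hgl)

/-- distances along a line -/
theorem d_line {y : V} (hyN : y ∈ W.N) {c : V} (hc : c ∈ W.L y) :
    W.d c y = |(W.u c : ℝ) - W.u y| := by
  have key : ∀ x₁ ∈ W.L y, ∀ x₂ ∈ W.L y, W.u x₁ ≤ W.u x₂ →
      W.d x₁ x₂ ≤ (W.u x₂ : ℝ) - W.u x₁ := by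
    intro x₁ hx₁ x₂ hx₂ hle
    obtain ⟨q, hq, -⟩ := W.L_path y hyN x₁ hx₁ x₂ hx₂ hle
    have h1 : (W.G.dist x₁ x₂ : ℤ) ≤ W.u x₂ - W.u x₁ := by
      rw [← hq]
      exact_mod_cast SimpleGraph.dist_le q
    unfold LWorld.d
    exact_mod_cast h1
  have hy := W.mem_L y hyN
  apply le_antisymm _ (abs_u_le_d W c y)
  rcases le_total (W.u c) (W.u y) with h | h
  · have := key c hc y hy h
    have h2 : (W.u c : ℝ) ≤ W.u y := by exact_mod_cast h
    rw [abs_of_nonpos (by linarith)]
    linarith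
  · have := key y hy c hc h
    have h2 : (W.u y : ℝ) ≤ W.u c := by exact_mod_cast h
    rw [abs_of_nonneg (by linarith), d_symm]
    linarith

theorem kap_pos : (0 : ℝ) < kap := by unfold kap; positivity

theorem kap_val : kap * 4194304 = 1 := by unfold kap; norm_num

/-- the centre is not far to the left: geometry -/
theorem centre_side {z y a : V} (hzN : z ∈ W.N) (hyN : y ∈ W.N) (huz : W.u z = W.u y)
    (hidx : W.idx z ≤ W.idx y) (ha : a ∈ W.N) (htpos : 0 < W.d z y)
    (haz : W.d a z ≤ kap * W.d z y) : W.idx a ≤ W.idx y ∧ a ∉ W.L y := by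
  have hkap := kap_pos
  have hkv := kap_val
  set t := W.d z y with ht
  have hfar : ∀ c ∈ W.L y, W.d z c ≤ 2 * kap * t → False := by
    intro c hc hcz
    have h1 := d_line W hyN hc
    have h2 := abs_u_le_d W c z
    rw [← huz] at h1
    rw [d_symm W c z] at h2
    have h3 := d_tri W z c y
    have h15 : 0 < kap * t := by positivity
    have h16 : t = 4194304 * (kap * t) := by linear_combination (-t) * hkv
    linarith
  refine ⟨?_, fun h => hfar a h (by
    rw [d_symm]
    have h15 : 0 < kap * t := by positivity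
    linarith)⟩
  by_contra hcon
  push Not at hcon
  obtain ⟨γ, hγ⟩ := W.conn.exists_walk_length_eq_dist a z
  obtain ⟨x, hx, hxL⟩ := W.sep y hyN z hzN a ha hidx hcon.le γ.reverse
  rw [Walk.support_reverse, List.mem_reverse] at hx
  classical
  apply hfar x hxL
  have h1 : W.d z x ≤ W.d a z := by
    have h2 := SimpleGraph.dist_le (γ.dropUntil x hx)
    have h3 := Walk.length_dropUntil_le_length γ hx
    rw [d_symm W z x]
    unfold LWorld.d
    rw [← hγ]
    exact_mod_cast h2.trans h3
  have h15 : 0 < kap * t := by positivity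
  linarith

/-- the clock at the centre -/
theorem centre_clock (k m : ℕ) {z y a : V} (hyN : y ∈ W.N) (huz : W.u z = W.u y)
    (htk : W.d z y ≤ 2 ^ k * 6) (haz : W.d a z ≤ kap * W.d z y)
    (hb1 : 6 * 2 ^ k ≤ W.pos k m a) (hb2 : W.pos k m a ≤ 9 * 2 ^ k)
    (hus : ¬ W.serves k m z y) [Finite V] {c : V} (g1 : W.G.Walk a c)
    (hsame : ∀ x ∈ g1.support, W.bi k m x = W.bi k m a) (hc : c ∈ W.N)
    (hcy : W.idx c ≤ W.idx y) :
    (W.D k m c : ℝ) ≤ W.D k m a + 3 * (kap * W.d z y) + |(W.u c : ℝ) - W.u z| := by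
  have hkap := kap_pos
  have hkv := kap_val
  set t := W.d z y with ht
  have ht0 : 0 ≤ t := d_nonneg W z y
  have h2k : (0 : ℤ) < 2 ^ k := by positivity
  have hazk : (W.G.dist a z : ℤ) ≤ 2 ^ k := by
    have h1 : W.d a z ≤ 2 ^ k := by
      refine haz.trans ?_
      have : (0:ℝ) < 2 ^ k := by positivity
      nlinarith
    unfold LWorld.d at h1
    exact_mod_cast h1
  obtain ⟨γ, hγ⟩ := W.conn.exists_walk_length_eq_dist a z
  have hbz := band_walk W k m γ (by rw [hγ]; omega) (by rw [hγ]; unfold th; omega)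
  obtain ⟨hRaz, hdaz⟩ := reach_of_walk W k m γ hbz
  have hposz := band_shift W k m (x := z) (a := a) (W.G.dist a z : ℤ)
    (by rw [abs_sub_comm]; exact abs_u_le_dist W a z) (by omega) (by unfold th; omega)
  have huaz := abs_le.1 (abs_u_le_dist W a z)
  have hmid : W.mid k m z := by
    unfold LWorld.mid
    constructor <;> omega
  have hRzy : (W.Bg k m).Reachable z y := by
    by_contra hcon
    exact hus ⟨hmid, Or.inl hcon⟩
  have hDzy : (W.D k m y : ℝ) - W.D k m z < cp * t := by
    by_contra hcon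
    exact hus ⟨hmid, Or.inr (not_lt.1 hcon)⟩
  have hDaz : (W.D k m z : ℝ) ≤ W.D k m a + kap * t := by
    have h8 := D_lip W k m hRaz
    have h9 : (W.D k m z : ℝ) ≤ W.D k m a + W.d a z := by
      have : (W.D k m z : ℤ) ≤ W.D k m a + W.G.dist a z := by
        have : ((W.Bg k m).dist a z : ℤ) ≤ W.G.dist a z := by
          rw [← hγ]
          exact_mod_cast hdaz
        linarith
      unfold LWorld.d
      exact_mod_cast this
    linarith
  have hcp : cp = 2 * kap := by unfold cp kap; norm_num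
  obtain ⟨h6, -⟩ := reach_of_walk W k m g1 hsame
  have hcR : (W.Bg k m).Reachable c y := (h6.symm.trans hRaz).trans hRzy
  have h7 := D_M W k m hc hyN hcR hcy
  have h8 : (W.D k m c : ℝ) ≤ W.D k m y + |(W.u c : ℝ) - W.u y| := by
    have : ((W.D k m c : ℤ) : ℝ) ≤ ((W.D k m y + |W.u c - W.u y| : ℤ) : ℝ) := by
      exact_mod_cast h7
    rw [Int.cast_add, Int.cast_abs, Int.cast_sub] at this
    exact_mod_cast this
  rw [← huz] at h8
  have h9 : cp * t = 2 * (kap * t) := by rw [hcp]; ring
  linarith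

/-- the centre of the situation at `a` -/
theorem centre [Fintype V] {ρ : V → ℝ} (hρ : W.Scale ρ)
    {p a b : V} {k m : ℕ} (g : W.G.Walk a b) (hr : W.Reg ρ p k m g)
    (ha : a ∈ W.N) (hn0 : 0 < W.nxt ρ a) :
    ∃ z y, y ∈ W.N ∧ W.u z = W.u y ∧ 0 < W.d z y ∧ W.nxt ρ a ≤ W.d z y ∧
      W.d a z ≤ kap * W.d z y ∧ W.idx a ≤ W.idx y ∧ a ∉ W.L y ∧
      W.d z y ≤ 32 * d1 * ρ p ∧ W.d z y ≤ 2 ^ k * 6 ∧ ¬ W.serves k m z y := by
  have hkap := kap_pos
  have hkv := kap_val
  obtain ⟨z, y, hu, hz⟩ := nxt_attain W hn0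
  have hul := uns_le W hρ hu
  obtain ⟨hzN, hyN, huz, hidx, hr0, h2t, huns⟩ := hu
  have htpos : 0 < W.d z y := lt_of_lt_of_le (by unfold r0; positivity) hr0
  have haz : W.d a z ≤ kap * W.d z y := by
    have : W.d a z / kap ≤ W.d z y := by linarith
    rw [div_le_iff₀ hkap] at this
    linarith
  have hside := centre_side W hzN hyN huz hidx ha htpos haz
  set t := W.d z y with ht
  have hnt : W.nxt ρ a ≤ t := by
    have : 0 ≤ W.d a z / kap := div_nonneg (d_nonneg W _ _) hkap.le
    linarith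
  have hag := hr.ball a (Walk.start_mem_support g)
  have hbig := hr.big
  have hpz : |ρ z - ρ p| ≤ ρ p / 4 + 4194304 + t := by
    have h1 := hρ.lip z p
    have h2 := d_tri W p a z
    rw [d_symm W z p] at h1
    refine h1.trans ?_
    rw [div_le_iff₀ hkap]
    nlinarith
  have hd1 : (0 : ℝ) < d1 := by unfold d1; positivity
  have hρz : ρ z ≤ (13 / 10) * ρ p ∧ (7 / 10) * ρ p ≤ ρ z := by
    have h1 := abs_le.1 hpz
    have hz0 := hρ.nonneg z
    have h3 : 16 * d1 * ρ z ≤ (1 / 1000) * ρ z := by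
      apply mul_le_mul_of_nonneg_right _ hz0
      unfold d1
      norm_num
    have h4 : (4194304 : ℝ) ≤ ρ p / 1000 := by
      have : (2 : ℝ) ^ 100 ≤ ρ p := hbig
      norm_num at this
      linarith
    constructor <;> linarith
  have hlo := hr.lo
  have hhi := hr.hi
  have hρp : 0 ≤ ρ p := hρ.nonneg p
  have hA : d1 * ρ z ≤ (13 / 10) * (d1 * ρ p) := by nlinarith
  have hlist : inList (ρ z) k := by
    constructor
    · nlinarith
    · have hdl : (0 : ℝ) < dl := by unfold dl; positivity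
      nlinarith
  have htp : t ≤ 32 * d1 * ρ p := by nlinarith
  refine ⟨z, y, hyN, huz, htpos, hnt, haz, hside.1, hside.2, htp, ?_, huns k m hr.m16 hlist⟩
  have h1 : (th k : ℝ) = 16 * 2 ^ k := by unfold th; push_cast; ring
  rw [h1] at hlo
  have h2 : (0 : ℝ) < 2 ^ k := by positivity
  linarith

/-- case C: the centre of an unserved pair -/
theorem stretch_centre [Fintype V] {ρ w : V → ℝ} (hρ : W.Scale ρ) (hw : W.Inv (W.nxt ρ) w)
    {p a b : V} {k m : ℕ} (g : W.G.Walk a b) (hr : W.Reg ρ p k m g)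
    (ha : a ∈ W.N) (hb : b ∈ W.N) (hne : a ≠ b) (hs : 4 / kap < W.nxt ρ a) :
    (W.D k m b : ℝ) ≤ W.D k m a + (5 / 4) * cost w g + 64 * d1 * ρ p ∨
    ∃ (c : V) (g1 : W.G.Walk a c) (g2 : W.G.Walk c b), g = g1.append g2 ∧ 0 < g1.length ∧
      c ∈ W.N ∧ (W.D k m c : ℝ) ≤ W.D k m a + (5 / 4) * cost w g1 := by
  have hkap := kap_pos
  have hkv := kap_val
  have hn0 : 0 < W.nxt ρ a := lt_trans (by positivity) hs
  obtain ⟨z, y, hyN, huz, htpos, hnt, haz, hiay, haL, htp, htk, hus⟩ :=
    centre W hρ g hr ha hn0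
  obtain ⟨hb1, hb2⟩ := hr.band a (Walk.start_mem_support g)
  have hmain : ∀ (c : V) (g1 : W.G.Walk a c), (∀ x ∈ g1.support, x ∈ g.support) → c ∈ W.N →
      W.idx c ≤ W.idx y →
      (W.D k m c : ℝ) ≤ W.D k m a + 3 * (kap * W.d z y) + |(W.u c : ℝ) - W.u z| :=
    fun c g1 h1 hc hcy => centre_clock W k m hyN huz htk haz hb1 hb2 hus g1
      (fun x hx => hr.same x (h1 x hx)) hc hcy
  set t := W.d z y with ht
  -- lines: a walk from `a` to the right of `y` meets the line
  have hsep : ∀ (c : V) (g1 : W.G.Walk a c), c ∈ W.N → W.idx y < W.idx c →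
      ∃ x ∈ g1.support, x ∈ W.L y ∧ x ∈ W.N ∧ x ≠ a ∧ x ≠ c := by
    intro c g1 hc hlt
    obtain ⟨x, hx, hxL⟩ := W.sep y hyN a ha c hc hiay hlt.le g1
    obtain ⟨hxN, hxi⟩ := W.L_sub y hyN x hxL
    refine ⟨x, hx, hxL, hxN, ?_, ?_⟩
    · rintro rfl
      exact haL hxL
    · rintro rfl
      omega
  have h15 : 0 < kap * t := by positivity
  have h14 : bb * t = 256 * (kap * t) := by
    have hbb : bb = 256 * kap := by unfold bb kap; norm_num
    rw [hbb]; ring
  have h16 : t = 4194304 * (kap * t) := by linear_combination (-t) * hkv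
  rcases first_stop g (fun c g1 => c ∈ W.N ∧
      (c ∈ W.L y ∨ ∃ x ∈ g1.support, bb * t ≤ |(W.u x : ℝ) - W.u z|)) with
    ⟨c, g1, g2, h1, h2, ⟨hcN, h3⟩, h4⟩ | hno
  · right
    have hsub : ∀ x ∈ g1.support, x ∈ g.support := by
      intro x hx
      rw [h1, Walk.mem_support_append_iff]
      exact Or.inl hx
    have hcy : W.idx c ≤ W.idx y := by
      by_contra hcon
      push Not at hcon
      obtain ⟨x, hx, hxL, hxN, hxa, hxc⟩ := hsep c g1 hcN hcon
      obtain ⟨g1', g2', e1, e2, e3, -⟩ := prefix_cut g g1 g2 h1 hx hxa hxc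
      have := h4 x g1' g2' e1 e2 ⟨hxN, Or.inl hxL⟩
      omega
    have h5 := hmain c g1 hsub hcN hcy
    refine ⟨c, g1, g2, h1, h2, hcN, ?_⟩
    clear h4 hsep hmain
    by_cases hdev : ∃ x ∈ g1.support, bb * t ≤ |(W.u x : ℝ) - W.u z|
    · -- beta
      obtain ⟨x, hx, hxb⟩ := hdev
      classical
      have h6 := vert W (nxt_scale W ρ) hw g1
      have h7 := vert W (nxt_scale W ρ) hw (g1.takeUntil x hx)
      have h8 := cost_append w (g1.takeUntil x hx) (g1.dropUntil x hx)
      rw [Walk.take_spec] at h8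
      have h9 := abs_le_cost w (g1.dropUntil x hx)
      have h10 : 0 ≤ cost w (g1.dropUntil x hx) := le_trans (abs_nonneg _) h9
      have huaz' : |(W.u a : ℝ) - W.u z| ≤ kap * t := (abs_u_le_d W a z).trans haz
      have h11 : |(W.u x : ℝ) - W.u z| ≤ |(W.u x : ℝ) - W.u a| + kap * t := by
        have := abs_sub_le (W.u x : ℝ) (W.u a) (W.u z)
        linarith
      have h12 : |(W.u c : ℝ) - W.u z| ≤ |(W.u c : ℝ) - W.u a| + kap * t := by
        have := abs_sub_le (W.u c : ℝ) (W.u a) (W.u z)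
        linarith
      have h13 : 8 * e1 * W.nxt ρ a ≤ kap * t := by
        have h17 : e1 * W.nxt ρ a ≤ e1 * t := by
          apply mul_le_mul_of_nonneg_left hnt
          unfold e1
          positivity
        have h18 : e1 * t * 8 ≤ kap * t := by
          have : e1 * 8 ≤ kap := by unfold e1 kap; norm_num
          nlinarith
        linarith
      linarith
    · -- alpha
      push Not at hdev
      have hcL : c ∈ W.L y := by
        rcases h3 with h | ⟨x, hx, hxb⟩
        · exact h
        · exact absurd hxb (not_le.2 (hdev x hx))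
      have h6 := d_line W hyN hcL
      have h7 := hdev c (Walk.end_mem_support g1)
      rw [← huz] at h6
      have h8 := d_tri W z a c
      have h9 := d_tri W z c y
      rw [d_symm W z a] at h8
      have h10 : (9 / 10) * t ≤ W.d a c := by linarith
      have h11 := hw.lb a c g1 (by
        have : C1 * d1 * W.nxt ρ a ≤ (1 / 2) * t := by
          have hh : 0 ≤ C1 * d1 := by unfold C1 d1; positivity
          have hC : C1 * d1 ≤ 1 / 2 := by unfold C1 d1; norm_num
          exact mul_le_mul hC hnt hn0.le (by norm_num)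
        linarith)
      have hc2 : c2 = 4096 * kap := by unfold c2 kap; norm_num
      have h12 : c2 * ((9 / 10) * t) ≤ c2 * W.d a c :=
        mul_le_mul_of_nonneg_left h10 (by rw [hc2]; positivity)
      have h13 : c2 * ((9 / 10) * t) = (36864 / 10) * (kap * t) := by rw [hc2]; ring
      linarith
  · left
    have hgl : 0 < g.length := by
      rcases Nat.eq_zero_or_pos g.length with h0 | h0
      · exact absurd (Walk.eq_of_length_eq_zero h0) hne
      · exact h0
    have hby : W.idx b ≤ W.idx y := by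
      by_contra hcon
      push Not at hcon
      obtain ⟨x, hx, hxL, hxN, hxa, hxc⟩ := hsep b g hb hcon
      obtain ⟨g1', g2', e1, e2, e3, -⟩ := prefix_cut g g Walk.nil (by simp) hx hxa hxc
      exact hno x g1' g2' e1 e2 ⟨hxN, Or.inl hxL⟩
    have h5 := hmain b g (fun _ h => h) hb hby
    have h6 := hno b g Walk.nil (by simp) hgl
    have h7 : |(W.u b : ℝ) - W.u z| < bb * t := by
      by_contra hcon
      exact h6 ⟨hb, Or.inr ⟨b, Walk.end_mem_support g, not_lt.1 hcon⟩⟩
    have h8 := abs_le_cost w g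
    have h9 : 0 ≤ cost w g := le_trans (abs_nonneg _) h8
    have h17 : 0 ≤ d1 * ρ p := by
      have hd1 : (0 : ℝ) ≤ d1 := by unfold d1; positivity
      exact mul_nonneg hd1 (hρ.nonneg p)
    linarith

/-- one stretch -/
theorem stretch [Fintype V] {ρ w : V → ℝ} (hρ : W.Scale ρ) (hw : W.Inv (W.nxt ρ) w)
    {p a b : V} {k m : ℕ}
    (g : W.G.Walk a b) (hg : g.IsPath) (hr : W.Reg ρ p k m g) (ha : a ∈ W.N) (hb : b ∈ W.N)
    (hne : a ≠ b) :
    (W.D k m b : ℝ) ≤ W.D k m a + (5 / 4) * cost w g + 64 * d1 * ρ p ∨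
    ∃ (c : V) (g1 : W.G.Walk a c) (g2 : W.G.Walk c b), g = g1.append g2 ∧ 0 < g1.length ∧
      c ∈ W.N ∧ (W.D k m c : ℝ) ≤ W.D k m a + (5 / 4) * cost w g1 := by
  rcases le_or_gt (W.nxt ρ a) (4 / kap) with hs | hs
  · exact Or.inr (stretch_hop W hw g hg hr hb hne hs)
  · exact stretch_centre W hρ hw g hr ha hb hne hs

/-- all stretches -/
theorem stretches [Fintype V] {ρ w : V → ℝ} (hρ : W.Scale ρ) (hw : W.Inv (W.nxt ρ) w)
    {p a b : V} {k m : ℕ} (g : W.G.Walk a b) (hg : g.IsPath) (hr : W.Reg ρ p k m g)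
    (ha : a ∈ W.N) (hb : b ∈ W.N) :
    (W.D k m b : ℝ) ≤ W.D k m a + (5 / 4) * cost w g + 64 * d1 * ρ p := by
  have key : ∀ (n : ℕ) (a : V) (g : W.G.Walk a b), g.length ≤ n → g.IsPath →
      W.Reg ρ p k m g → a ∈ W.N →
      (W.D k m b : ℝ) ≤ W.D k m a + (5 / 4) * cost w g + 64 * d1 * ρ p := by
    have hd1 : (0 : ℝ) < d1 := by unfold d1; positivity
    have hρp : 0 ≤ ρ p := hρ.nonneg p
    intro n
    induction n with
    | zero =>
      intro a g hn hg hr ha
      have := Walk.eq_of_length_eq_zero (Nat.le_zero.1 hn)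
      subst this
      have h8 := abs_le_cost w g
      have h9 : 0 ≤ cost w g := le_trans (abs_nonneg _) h8
      have : 0 ≤ 64 * d1 * ρ p := by positivity
      linarith
    | succ n ih =>
      intro a g hn hg hr ha
      by_cases hne : a = b
      · subst hne
        have h8 := abs_le_cost w g
        have h9 : 0 ≤ cost w g := le_trans (abs_nonneg _) h8
        have : 0 ≤ 64 * d1 * ρ p := by positivity
        linarith
      rcases stretch W hρ hw g hg hr ha hb hne with h | ⟨c, g1, g2, h1, h2, hcN, h3⟩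
      · exact h
      · have hlen := congrArg Walk.length h1
        rw [Walk.length_append] at hlen
        have hsub : ∀ x ∈ g2.support, x ∈ g.support := by
          intro x hx
          rw [h1, Walk.mem_support_append_iff]
          exact Or.inr hx
        have hr2 : W.Reg ρ p k m g2 :=
          ⟨hr.m16, hr.big, hr.lo, hr.hi, fun z hz => hr.ball z (hsub z hz),
            fun z hz => hr.band z (hsub z hz), fun z hz => by
              rw [hr.same z (hsub z hz), hr.same c (hsub c (Walk.start_mem_support g2))]⟩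
        have hg2 : g2.IsPath := by
          rw [h1] at hg
          exact hg.of_append_right
        have h4 := ih c g2 (by omega) hg2 hr2 hcN
        have h5 : cost w g = cost w g1 + cost w g2 := by
          rw [h1]
          exact cost_append w g1 g2
        linarith
  exact key g.length a g le_rfl hg hr ha

end Vale.Agent.P235.STO.H24
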